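import Mathlib

/-! k-edges of a point set with distinct first coordinates: alternation lemma and the
elementary `L^(3/2)` bound, and the injection of k-sets into (k-1)-edges. -/

namespace Vale.Agent.P065

open Finset
open scoped Classical

/-- Twice the signed area of the triangle `a b z`. -/
def crs (a b z : ℝ × ℝ) : ℝ := (b.1 - a.1) * (z.2 - a.2) - (b.2 - a.2) * (z.1 - a.1)

/-- The points strictly left of the directed line `a b`. -/
noncomputable def leftSet (P : Finset (ℝ × ℝ)) (a b : ℝ × ℝ) : Finset (ℝ × ℝ) :=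
  P.filter fun z => 0 < crs a b z

/-- Ordered pairs with exactly `k` points strictly left of their line. -/
noncomputable def kEdges (P : Finset (ℝ × ℝ)) (k : ℕ) : Finset ((ℝ × ℝ) × (ℝ × ℝ)) :=
  P.offDiag.filter fun e => (leftSet P e.1 e.2).card = k

/-- No three collinear. -/
def General (P : Finset (ℝ × ℝ)) : Prop :=
  ∀ a ∈ P, ∀ b ∈ P, ∀ z ∈ P, a ≠ b → z ≠ a → z ≠ b → crs a b z ≠ 0

/-- The `k`-edges oriented to the right. -/
noncomputable def rEdges (P : Finset (ℝ × ℝ)) (k : ℕ) : Finset ((ℝ × ℝ) × (ℝ × ℝ)) :=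
  (kEdges P k).filter fun e => e.1.1 < e.2.1

noncomputable def sl (a z : ℝ × ℝ) : ℝ := (z.2 - a.2) / (z.1 - a.1)

/-- The number of points strictly above the line through `a` of slope `s`. -/
noncomputable def above (P : Finset (ℝ × ℝ)) (a : ℝ × ℝ) (s : ℝ) : ℕ :=
  (P.filter fun z => (a.1 < z.1 ∧ s < sl a z) ∨ (z.1 < a.1 ∧ sl a z < s)).card

lemma above_iff (a z : ℝ × ℝ) (s : ℝ) (h : z.1 ≠ a.1) :
    ((a.1 < z.1 ∧ s < sl a z) ∨ (z.1 < a.1 ∧ sl a z < s)) ↔
      0 < (z.2 - a.2) - s * (z.1 - a.1) := by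
  rcases lt_or_gt_of_ne h with h' | h'
  · rw [sl, div_lt_iff_of_neg (by linarith)]
    constructor
    · rintro (⟨h1, -⟩ | ⟨-, h2⟩) <;> linarith
    · intro h2; exact Or.inr ⟨h', by linarith⟩
  · rw [sl, lt_div_iff₀ (by linarith)]
    constructor
    · rintro (⟨-, h2⟩ | ⟨h1, -⟩) <;> linarith
    · intro h2; exact Or.inl ⟨h', by linarith⟩

variable {P : Finset (ℝ × ℝ)} {k : ℕ}

lemma leftSet_eq (hx : Set.InjOn (Prod.fst : ℝ × ℝ → ℝ) ↑P) {a b c : ℝ × ℝ}
    (hc : c = a ∨ c = b) (hcP : c ∈ P) (hab : a.1 < b.1) :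
    (leftSet P a b).card = above P c (sl a b) := by
  apply congrArg Finset.card
  apply Finset.filter_congr
  intro z hz
  have hd : 0 < b.1 - a.1 := by linarith
  have key : crs a b z = (b.1 - a.1) * ((z.2 - c.2) - sl a b * (z.1 - c.1)) := by
    rcases hc with rfl | rfl <;> simp only [crs, sl] <;> field_simp <;> ring
  by_cases hzc : z.1 = c.1
  · have hzc' : z = c := hx hz hcP hzc
    subst hzc'
    simp [key]
  · rw [above_iff c z _ hzc, key]
    exact ⟨fun h => pos_of_mul_pos_right h hd.le, fun h => mul_pos hd h⟩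

lemma crs_general (hg : General P) (hx : Set.InjOn (Prod.fst : ℝ × ℝ → ℝ) ↑P) {a z w : ℝ × ℝ}
    (ha : a ∈ P) (hz : z ∈ P) (hw : w ∈ P) (hza : z ≠ a) (hwa : w ≠ a)
    (h : sl a z = sl a w) : z = w := by
  by_contra hne
  apply hg a ha z hz w hw (Ne.symm hza) hwa (Ne.symm hne)
  have h1 : z.1 - a.1 ≠ 0 := sub_ne_zero.2 fun e => hza (hx hz ha e)
  have h2 : w.1 - a.1 ≠ 0 := sub_ne_zero.2 fun e => hwa (hx hw ha e)
  rw [sl, sl, div_eq_div_iff h1 h2] at h
  simp only [crs]
  linarith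

/-- Between two right `k`-edges at a point there is a left one. -/
lemma between (hg : General P) (hx : Set.InjOn (Prod.fst : ℝ × ℝ → ℝ) ↑P) {a b₁ b₂ : ℝ × ℝ}
    (ha : a ∈ P) (hb₁ : b₁ ∈ P) (hb₂ : b₂ ∈ P) (h₁ : a.1 < b₁.1) (h₂ : a.1 < b₂.1)
    (hlt : sl a b₁ < sl a b₂) (hk₁ : above P a (sl a b₁) = k) (hk₂ : above P a (sl a b₂) = k) :
    ∃ z ∈ P, z.1 < a.1 ∧ sl a b₁ < sl a z ∧ sl a z < sl a b₂ ∧ above P a (sl a z) = k := by
  set s₁ := sl a b₁ with hs₁
  set s₂ := sl a b₂ with hs₂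
  set T := P.filter fun z => z.1 < a.1 ∧ s₁ < sl a z ∧ sl a z < s₂ ∧ above P a (sl a z) ≤ k
    with hT
  -- the number just right of `s`
  let J : ℝ → ℕ := fun s => (P.filter fun z =>
    (a.1 < z.1 ∧ s < sl a z) ∨ (z.1 < a.1 ∧ sl a z ≤ s)).card
  have hJs₁ : J s₁ = k := by
    rw [← hk₁]
    refine congrArg Finset.card (Finset.filter_congr fun z hz => ?_)
    constructor
    · rintro (h | ⟨h, h'⟩)
      · exact Or.inl h
      · refine Or.inr ⟨h, lt_of_le_of_ne h' fun e => ?_⟩
        have hzb := crs_general hg hx ha hz hb₁ (by rintro rfl; exact lt_irrefl _ h)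
          (by rintro rfl; exact lt_irrefl _ h₁) e
        rw [hzb] at h; linarith
    · rintro (h | ⟨h, h'⟩)
      · exact Or.inl h
      · exact Or.inr ⟨h, h'.le⟩
  have step : ∀ s t : ℝ, s < t → t ≤ s₂ →
      (∀ z ∈ P, z.1 < a.1 → s < sl a z → t ≤ sl a z) →
      above P a t + (if t = s₂ then 1 else 0) ≤ J s := by
    intro s t hst hts hno
    have hsub : (P.filter fun z => (a.1 < z.1 ∧ t < sl a z) ∨ (z.1 < a.1 ∧ sl a z < t)) ⊆
        P.filter fun z => (a.1 < z.1 ∧ s < sl a z) ∨ (z.1 < a.1 ∧ sl a z ≤ s) := by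
      intro z hz
      simp only [Finset.mem_filter] at hz ⊢
      refine ⟨hz.1, ?_⟩
      rcases hz.2 with ⟨h, h'⟩ | ⟨h, h'⟩
      · exact Or.inl ⟨h, hst.trans h'⟩
      · exact Or.inr ⟨h, not_lt.1 fun e => absurd (hno z hz.1 h e) (not_le.2 h')⟩
    split_ifs with ht
    · refine Finset.card_lt_card (Finset.ssubset_iff_subset_ne.2 ⟨hsub, fun e => ?_⟩)
      have : b₂ ∈ P.filter fun z => (a.1 < z.1 ∧ s < sl a z) ∨ (z.1 < a.1 ∧ sl a z ≤ s) :=
        Finset.mem_filter.2 ⟨hb₂, Or.inl ⟨h₂, by rw [← hs₂, ← ht]; exact hst⟩⟩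
      rw [← e, Finset.mem_filter] at this
      rcases this.2 with ⟨-, h'⟩ | ⟨h', -⟩
      · rw [ht, hs₂] at h'; exact lt_irrefl _ h'
      · linarith
    · exact (Finset.card_le_card hsub).trans le_rfl
  have next_gt : ∀ s : ℝ, s₁ ≤ s → s < s₂ →
      (∀ z ∈ T, sl a z ≤ s) → k + 1 ≤ J s := by
    intro s hs₁' hs hmax
    set U := P.filter fun z => z.1 < a.1 ∧ s < sl a z ∧ sl a z < s₂ with hU
    rcases U.eq_empty_or_nonempty with hU0 | hU0
    · have := step s s₂ hs le_rfl fun z hz h h' => not_lt.1 fun h'' => by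
        have hmem : z ∈ U := Finset.mem_filter.2 ⟨hz, h, h', h''⟩
        rw [hU0] at hmem; simp at hmem
      rw [hk₂, if_pos rfl] at this
      exact this
    · obtain ⟨z, hz, hmin⟩ := U.exists_min_image (fun z => sl a z) hU0
      rw [hU, Finset.mem_filter] at hz
      have hle := step s (sl a z) hz.2.2.1 hz.2.2.2.le fun w hw h h' => by
        by_cases h'' : sl a w < s₂
        · exact hmin w (Finset.mem_filter.2 ⟨hw, h, h', h''⟩)
        · exact hz.2.2.2.le.trans (not_lt.1 h'')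
      rw [if_neg hz.2.2.2.ne] at hle
      have hgt : k < above P a (sl a z) := not_le.1 fun h => by
        have := hmax z (Finset.mem_filter.2
          ⟨hz.1, hz.2.1, lt_of_le_of_lt hs₁' hz.2.2.1, hz.2.2.2, h⟩)
        linarith [hz.2.2.1]
      omega
  have hTne : T.Nonempty := by
    by_contra h
    have := next_gt s₁ le_rfl hlt fun z hz => absurd ⟨z, hz⟩ h
    omega
  obtain ⟨z, hz, hmax⟩ := T.exists_max_image (fun z => sl a z) hTne
  have hz' := hz
  rw [hT, Finset.mem_filter] at hz'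
  obtain ⟨hzP, hza, hs1, hs2, hle⟩ := hz'
  refine ⟨z, hzP, hza, hs1, hs2, le_antisymm hle ?_⟩
  have hJ := next_gt (sl a z) hs1.le hs2 hmax
  have hJ' : J (sl a z) ≤ above P a (sl a z) + 1 := by
    refine le_trans (Finset.card_le_card (t := insert z (P.filter fun w =>
      (a.1 < w.1 ∧ sl a z < sl a w) ∨ (w.1 < a.1 ∧ sl a w < sl a z))) ?_) (Finset.card_insert_le _ _)
    intro w hw
    simp only [Finset.mem_filter] at hw
    rcases hw with ⟨hwP, h | ⟨h, h'⟩⟩
    · exact Finset.mem_insert_of_mem (Finset.mem_filter.2 ⟨hwP, Or.inl h⟩)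
    · rcases lt_or_eq_of_le h' with h' | h'
      · exact Finset.mem_insert_of_mem (Finset.mem_filter.2 ⟨hwP, Or.inr ⟨h, h'⟩⟩)
      · rw [crs_general hg hx ha hwP hzP (by rintro rfl; exact lt_irrefl _ h)
          (by rintro rfl; exact lt_irrefl _ hza) h']
        exact Finset.mem_insert_self _ _
  omega

lemma mem_rEdges {e : (ℝ × ℝ) × (ℝ × ℝ)} (hx : Set.InjOn (Prod.fst : ℝ × ℝ → ℝ) ↑P) :
    e ∈ rEdges P k ↔ e.1 ∈ P ∧ e.2 ∈ P ∧ e.1.1 < e.2.1 ∧
      above P e.1 (sl e.1 e.2) = k ∧ above P e.2 (sl e.1 e.2) = k := by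
  simp only [rEdges, kEdges, Finset.mem_filter, Finset.mem_offDiag]
  constructor
  · rintro ⟨⟨⟨h1, h2, -⟩, h4⟩, h5⟩
    exact ⟨h1, h2, h5, (leftSet_eq hx (Or.inl rfl) h1 h5).symm.trans h4,
      (leftSet_eq hx (Or.inr rfl) h2 h5).symm.trans h4⟩
  · rintro ⟨h1, h2, h3, h4, -⟩
    exact ⟨⟨⟨h1, h2, fun e => by rw [e] at h3; exact lt_irrefl _ h3⟩,
      (leftSet_eq hx (Or.inl rfl) h1 h3).trans h4⟩, h3⟩

lemma sl_symm (a z : ℝ × ℝ) : sl z a = sl a z := by
  simp only [sl]
  rw [← neg_div_neg_eq, neg_sub, neg_sub]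

/-- At every point the right `k`-edges outnumber the left ones by at most one. -/
lemma out_le_in (hg : General P) (hx : Set.InjOn (Prod.fst : ℝ × ℝ → ℝ) ↑P) (a : ℝ × ℝ) :
    ((rEdges P k).filter fun e => e.1 = a).card ≤
      ((rEdges P k).filter fun e => e.2 = a).card + 1 := by
  set O := (rEdges P k).filter fun e => e.1 = a with hO
  set I := (rEdges P k).filter fun e => e.2 = a with hI
  rcases O.eq_empty_or_nonempty with h | h
  · simp [h]
  obtain ⟨emax, hemax, hmax⟩ := O.exists_max_image (fun e => sl a e.2) h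
  have memO : ∀ e ∈ O, e.1 = a ∧ a ∈ P ∧ e.2 ∈ P ∧ a.1 < e.2.1 ∧ above P a (sl a e.2) = k := by
    intro e he
    obtain ⟨he1, rfl⟩ := Finset.mem_filter.1 he
    obtain ⟨h1, h2, h3, h4, -⟩ := (mem_rEdges hx).1 he1
    exact ⟨rfl, h1, h2, h3, h4⟩
  have hne : ∀ e ∈ O, ∀ e' ∈ O, sl a e.2 = sl a e'.2 → e = e' := by
    intro e he e' he' hs
    obtain ⟨h1, ha, h2, h3, -⟩ := memO e he
    obtain ⟨h1', -, h2', h3', -⟩ := memO e' he'
    refine Prod.ext (h1.trans h1'.symm) (crs_general hg hx ha h2 h2' ?_ ?_ hs)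
    · intro hh; rw [hh] at h3; exact lt_irrefl _ h3
    · intro hh; rw [hh] at h3'; exact lt_irrefl _ h3'
  suffices (O.erase emax).card ≤ I.card by
    have := Finset.card_erase_add_one hemax
    omega
  obtain ⟨-, ha, -, -, -⟩ := memO emax hemax
  -- the next edge in slope order
  have hnext : ∀ e ∈ O.erase emax, ∃ e' ∈ O, sl a e.2 < sl a e'.2 ∧
      ∀ e'' ∈ O, sl a e.2 < sl a e''.2 → sl a e'.2 ≤ sl a e''.2 := by
    intro e he
    obtain ⟨hne', he⟩ := Finset.mem_erase.1 he
    have hlt : sl a e.2 < sl a emax.2 :=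
      lt_of_le_of_ne (hmax e he) fun h => hne' (hne e he emax hemax h)
    obtain ⟨e', he', hmin⟩ := (O.filter fun f => sl a e.2 < sl a f.2).exists_min_image
      (fun f => sl a f.2) ⟨emax, Finset.mem_filter.2 ⟨hemax, hlt⟩⟩
    exact ⟨e', (Finset.mem_filter.1 he').1, (Finset.mem_filter.1 he').2,
      fun e'' h1 h2 => hmin e'' (Finset.mem_filter.2 ⟨h1, h2⟩)⟩
  choose nx hnx1 hnx2 hnx3 using hnext
  have hz : ∀ e (he : e ∈ O.erase emax), ∃ z ∈ P, z.1 < a.1 ∧ sl a e.2 < sl a z ∧
      sl a z < sl a (nx e he).2 ∧ above P a (sl a z) = k := by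
    intro e he
    obtain ⟨-, -, h2, h3, h4⟩ := memO e (Finset.mem_erase.1 he).2
    obtain ⟨-, -, h2', h3', h4'⟩ := memO _ (hnx1 e he)
    exact between hg hx ha h2 h2' h3 h3' (hnx2 e he) h4 h4'
  choose zf hz1 hz2 hz3 hz4 hz5 using hz
  rw [← Finset.card_attach]
  refine Finset.card_le_card_of_injOn (fun e => (zf e.1 e.2, a)) ?_ ?_
  · intro e _
    simp only [Finset.mem_coe, hI, Finset.mem_filter]
    refine ⟨(mem_rEdges hx).2 ⟨hz1 _ _, ha, hz2 _ _, ?_, ?_⟩, trivial⟩
    · rw [← leftSet_eq hx (Or.inl rfl) (hz1 _ _) (hz2 _ _),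
        leftSet_eq hx (Or.inr rfl) ha (hz2 _ _), sl_symm a]
      exact hz5 _ _
    · rw [sl_symm a]; exact hz5 _ _
  · intro e _ e' _ he
    have hze : zf e.1 e.2 = zf e'.1 e'.2 := (Prod.mk.injEq _ _ _ _ |>.mp he).1
    apply Subtype.ext
    by_contra hee
    have m1 := (Finset.mem_erase.1 e.2).2
    have m2 := (Finset.mem_erase.1 e'.2).2
    rcases lt_or_gt_of_ne (fun h => hee (hne _ m1 _ m2 h)) with h | h
    · have := hnx3 _ e.2 _ m2 h
      have h1 := hz4 _ e.2; have h2 := hz3 _ e'.2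
      rw [← hze] at h2; linarith
    · have := hnx3 _ e'.2 _ m1 h
      have h1 := hz4 _ e'.2; have h2 := hz3 _ e.2
      rw [hze] at h2; linarith

/-- At most one edge net per point: few right `k`-edges cross a vertical line. -/
lemma cut_le (hg : General P) (hx : Set.InjOn (Prod.fst : ℝ × ℝ → ℝ) ↑P) (c : ℝ) :
    ((rEdges P k).filter fun e => e.1.1 < c ∧ c ≤ e.2.1).card ≤ P.card := by
  set E := rEdges P k
  set L := P.filter fun a => a.1 < c
  have h1 : (E.filter fun e => e.1.1 < c).card =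
      ∑ a ∈ L, (E.filter fun e => e.1 = a).card := by
    rw [Finset.card_eq_sum_card_fiberwise (f := fun e => e.1) (t := L) fun e he => by
      simp only [Finset.mem_coe, Finset.mem_filter] at he
      exact Finset.mem_filter.2 ⟨((mem_rEdges hx).1 he.1).1, he.2⟩]
    refine Finset.sum_congr rfl fun a ha => congrArg Finset.card ?_
    rw [Finset.filter_filter]
    exact Finset.filter_congr fun e he =>
      ⟨fun h => h.2, fun h => ⟨h ▸ (Finset.mem_filter.1 ha).2, h⟩⟩
  have h2 : (E.filter fun e => e.2.1 < c).card =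
      ∑ a ∈ L, (E.filter fun e => e.2 = a).card := by
    rw [Finset.card_eq_sum_card_fiberwise (f := fun e => e.2) (t := L) fun e he => by
      simp only [Finset.mem_coe, Finset.mem_filter] at he
      exact Finset.mem_filter.2 ⟨((mem_rEdges hx).1 he.1).2.1, he.2⟩]
    refine Finset.sum_congr rfl fun a ha => congrArg Finset.card ?_
    rw [Finset.filter_filter]
    exact Finset.filter_congr fun e he =>
      ⟨fun h => h.2, fun h => ⟨h ▸ (Finset.mem_filter.1 ha).2, h⟩⟩
  have h3 : (E.filter fun e => e.1.1 < c).card ≤ (E.filter fun e => e.2.1 < c).card + L.card := by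
    rw [h1, h2, Finset.card_eq_sum_ones L, ← Finset.sum_add_distrib]
    exact Finset.sum_le_sum fun a _ => out_le_in hg hx a
  have h4 : (E.filter fun e => e.1.1 < c ∧ c ≤ e.2.1).card + (E.filter fun e => e.2.1 < c).card =
      (E.filter fun e => e.1.1 < c).card := by
    rw [← Finset.card_union_of_disjoint (Finset.disjoint_filter.2 fun e _ h h' =>
      absurd h.2 (not_le.2 h')), ← Finset.filter_or]
    refine congrArg Finset.card (Finset.filter_congr fun e he => ?_)
    constructor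
    · rintro (h | h)
      · exact h.1
      · exact ((mem_rEdges hx).1 he).2.2.1.trans h
    · intro h
      rcases le_or_gt c e.2.1 with h' | h'
      · exact Or.inl ⟨h, h'⟩
      · exact Or.inr h'
  have hL : L.card ≤ P.card := Finset.card_filter_le _ _
  omega

/-- The rank of a point in the order of first coordinates. -/
noncomputable def rk (P : Finset (ℝ × ℝ)) (a : ℝ × ℝ) : ℕ := (P.filter fun z => z.1 < a.1).card

lemma rk_lt {a b : ℝ × ℝ} (ha : a ∈ P) (h : a.1 < b.1) : rk P a < rk P b := by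
  refine Finset.card_lt_card (Finset.ssubset_iff_of_subset ?_ |>.2 ⟨a, ?_, ?_⟩)
  · intro z hz
    simp only [Finset.mem_filter] at hz ⊢
    exact ⟨hz.1, hz.2.trans h⟩
  · exact Finset.mem_filter.2 ⟨ha, h⟩
  · simp

lemma rk_injOn (hx : Set.InjOn (Prod.fst : ℝ × ℝ → ℝ) ↑P) : Set.InjOn (rk P) ↑P := by
  intro a ha b hb h
  rcases lt_trichotomy a.1 b.1 with h' | h' | h'
  · exact absurd h (rk_lt ha h').ne
  · exact hx ha hb h'
  · exact absurd h (rk_lt hb h').ne'

lemma rk_lt_card {a : ℝ × ℝ} (ha : a ∈ P) : rk P a < P.card :=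
  Finset.card_lt_card (Finset.ssubset_iff_of_subset (Finset.filter_subset _ _) |>.2
    ⟨a, ha, by simp⟩)

/-- There are at most `L (2 √L + 2)` right `k`-edges among `L` points. -/
lemma rEdges_card_le (hg : General P) (hx : Set.InjOn (Prod.fst : ℝ × ℝ → ℝ) ↑P) :
    (rEdges P k).card ≤ P.card * (2 * Nat.sqrt P.card + 4) := by
  set L := P.card with hL
  set w := Nat.sqrt L + 1 with hw
  set E := rEdges P k
  have hshort : (E.filter fun e => rk P e.2 < rk P e.1 + w).card ≤ L * w := by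
    refine le_trans (Finset.card_le_card_of_injOn (t := P ×ˢ Finset.range w)
      (fun e => (e.1, rk P e.2 - rk P e.1)) ?_ ?_) (by simp [hL])
    · intro e he
      simp only [Finset.mem_coe, Finset.mem_filter] at he
      simp only [Finset.mem_coe, Finset.mem_product, Finset.mem_range]
      obtain ⟨h1, -, h3, -⟩ := (mem_rEdges hx).1 he.1
      exact ⟨h1, by have := rk_lt h1 h3; omega⟩
    · intro e he e' he' h
      simp only [Finset.mem_coe, Finset.mem_filter] at he he'
      simp only [Prod.mk.injEq] at h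
      obtain ⟨h1, h2, h3, -⟩ := (mem_rEdges hx).1 he.1
      obtain ⟨h1', h2', h3', -⟩ := (mem_rEdges hx).1 he'.1
      refine Prod.ext h.1 (rk_injOn hx h2 h2' ?_)
      have := rk_lt h1 h3
      have := rk_lt h1' h3'
      have := congrArg (rk P) h.1
      omega
  have hlong : (E.filter fun e => ¬ rk P e.2 < rk P e.1 + w).card ≤ L * w := by
    have hcov : (E.filter fun e => ¬ rk P e.2 < rk P e.1 + w) ⊆
        (Finset.range w).biUnion fun t =>
          E.filter fun e => rk P e.1 < w * t ∧ w * t ≤ rk P e.2 := by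
      intro e he
      simp only [Finset.mem_filter] at he
      obtain ⟨-, h2, -⟩ := (mem_rEdges hx).1 he.1
      have hlt := rk_lt_card h2
      have hsq := Nat.lt_succ_sqrt L
      refine Finset.mem_biUnion.2 ⟨rk P e.2 / w, ?_, Finset.mem_filter.2 ⟨he.1, ?_, ?_⟩⟩
      · rw [Finset.mem_range, Nat.div_lt_iff_lt_mul (by omega)]
        calc rk P e.2 < L := hlt
          _ ≤ w * w := by rw [hw]; exact hsq.le
      · have := Nat.div_add_mod (rk P e.2) w
        have := Nat.mod_lt (rk P e.2) (show 0 < w by omega)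
        omega
      · exact Nat.mul_div_le _ _
    refine (Finset.card_le_card hcov).trans (Finset.card_biUnion_le.trans ?_)
    refine (Finset.sum_le_card_nsmul _ _ L fun t _ => ?_).trans (by simp [mul_comm])
    by_cases h : ∃ z ∈ P, rk P z = w * t
    · obtain ⟨z, hz, hzt⟩ := h
      refine le_trans (Finset.card_le_card fun e he => ?_) (cut_le (k := k) hg hx z.1)
      simp only [Finset.mem_filter] at he ⊢
      obtain ⟨h1, h2, -⟩ := (mem_rEdges hx).1 he.1
      refine ⟨he.1, ?_, ?_⟩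
      · refine lt_of_not_ge fun h => ?_
        rcases lt_or_eq_of_le h with h | h
        · have := rk_lt hz h; omega
        · rw [hx hz h1 h] at hzt; omega
      · refine le_of_not_gt fun h => ?_
        have := rk_lt h2 h; omega
    · push Not at h
      have : (E.filter fun e => rk P e.1 < w * t ∧ w * t ≤ rk P e.2) = ∅ := by
        refine Finset.eq_empty_of_forall_notMem fun e he => ?_
        simp only [Finset.mem_filter] at he
        obtain ⟨-, h2, -⟩ := (mem_rEdges hx).1 he.1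
        have hwt : w * t < L := lt_of_le_of_lt he.2.2 (rk_lt_card h2)
        have himg : P.image (rk P) = Finset.range L := by
          refine Finset.eq_of_subset_of_card_le (fun i hi => ?_) ?_
          · obtain ⟨z, hz, rfl⟩ := Finset.mem_image.1 hi
            exact Finset.mem_range.2 (rk_lt_card hz)
          · rw [Finset.card_image_of_injOn (rk_injOn hx), Finset.card_range]
        have := Finset.mem_range.2 hwt
        rw [← himg, Finset.mem_image] at this
        obtain ⟨z, hz, hzt⟩ := this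
        exact h z hz hzt
      rw [this]; simp
  have := Finset.card_filter_add_card_filter_not (s := E) (fun e => rk P e.2 < rk P e.1 + w)
  calc E.card ≤ L * w + L * w := by omega
    _ ≤ L * (2 * Nat.sqrt L + 4) := by rw [hw]; ring_nf; omega

/-- The `k`-sets of `P`. -/
noncomputable def kSets (P : Finset (ℝ × ℝ)) (k : ℕ) : Finset (Finset (ℝ × ℝ)) :=
  (P.powersetCard k).filter fun S => ∃ u v c : ℝ,
    (∀ z ∈ S, c < u * z.1 + v * z.2) ∧ ∀ z ∈ P, z ∉ S → u * z.1 + v * z.2 < c

/-- A set lying above a line is a right `(k-1)`-edge plus its endpoint, or is the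
leftmost `k` points. -/
lemma upper_sep (hg : General P) (hx : Set.InjOn (Prod.fst : ℝ × ℝ → ℝ) ↑P) {S : Finset (ℝ × ℝ)}
    (hS : S ⊆ P) (s c : ℝ) (h1 : ∀ z ∈ S, c < z.2 - s * z.1)
    (h2 : ∀ z ∈ P, z ∉ S → z.2 - s * z.1 < c) :
    (∃ e ∈ rEdges P (S.card - 1), S = insert e.2 (leftSet P e.1 e.2)) ∨
      (∀ a ∈ S, ∀ b ∈ P, b ∉ S → a.1 < b.1) := by
  set V := (S ×ˢ P).filter fun q => q.2 ∉ S ∧ q.2.1 < q.1.1 with hV
  rcases V.eq_empty_or_nonempty with hV0 | hV0
  · refine Or.inr fun a ha b hb hb' => ?_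
    rcases lt_trichotomy a.1 b.1 with h | h | h
    · exact h
    · exact absurd (hx (hS ha) hb h ▸ ha) hb'
    · have : (a, b) ∈ V := Finset.mem_filter.2 ⟨Finset.mem_product.2 ⟨ha, hb⟩, hb', h⟩
      rw [hV0] at this; simp at this
  refine Or.inl ?_
  obtain ⟨⟨a, b⟩, hab, hmin⟩ := V.exists_min_image (fun q => sl q.2 q.1) hV0
  simp only [hV, Finset.mem_filter, Finset.mem_product] at hab
  obtain ⟨⟨ha, hb⟩, hbS, hlt⟩ := hab
  set t := sl b a with ht
  have hts : s < t := by
    rw [ht, sl, lt_div_iff₀ (by linarith)]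
    have := h1 a ha; have := h2 b hb hbS
    linarith
  have htie : a.2 - t * a.1 = b.2 - t * b.1 := by
    have hne : a.1 - b.1 ≠ 0 := by linarith
    rw [ht, sl]; field_simp; ring
  have hmono : ∀ z ∈ S, ∀ w ∈ P, w ∉ S → w.2 - t * w.1 ≤ z.2 - t * z.1 := by
    intro z hz w hw hwS
    have := h1 z hz; have := h2 w hw hwS
    rcases le_or_gt z.1 w.1 with h | h
    · nlinarith
    · have hm : (z, w) ∈ V := Finset.mem_filter.2 ⟨Finset.mem_product.2 ⟨hz, hw⟩, hwS, h⟩
      have h' : t ≤ sl w z := hmin _ hm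
      rw [sl, le_div_iff₀ (by linarith)] at h'
      linarith
  have hcrs : ∀ z, crs b a z = (a.1 - b.1) * ((z.2 - t * z.1) - (b.2 - t * b.1)) := by
    intro z
    have hne : a.1 - b.1 ≠ 0 := by linarith
    rw [ht, sl, crs]; field_simp; ring
  have hleft : leftSet P b a = S.erase a := by
    ext z
    simp only [leftSet, Finset.mem_filter, Finset.mem_erase]
    constructor
    · rintro ⟨hz, hpos⟩
      refine ⟨fun e => ?_, by_contra fun hzS => ?_⟩
      · rw [e, hcrs, htie, sub_self, mul_zero] at hpos; exact lt_irrefl _ hpos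
      · have := hmono a ha z hz hzS
        rw [hcrs] at hpos
        have := pos_of_mul_pos_right hpos (by linarith)
        linarith
    · rintro ⟨hza, hz⟩
      refine ⟨hS hz, lt_of_le_of_ne ?_ ?_⟩
      · rw [hcrs]
        exact mul_nonneg (by linarith) (by linarith [hmono z hz b hb hbS])
      · exact Ne.symm (hg b hb a (hS ha) z (hS hz) (by rintro rfl; exact hbS ha)
          (by rintro rfl; exact hbS hz) hza)
  refine ⟨(b, a), Finset.mem_filter.2 ⟨Finset.mem_filter.2 ⟨Finset.mem_offDiag.2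
    ⟨hb, hS ha, fun h => hbS ((show b = a from h) ▸ ha)⟩, ?_⟩, hlt⟩, ?_⟩
  · show (leftSet P b a).card = _
    rw [hleft, Finset.card_erase_of_mem ha]
  · show S = insert a (leftSet P b a)
    rw [hleft, Finset.insert_erase ha]

/-- The sets lying above a line are few. -/
lemma upper_card (hg : General P) (hx : Set.InjOn (Prod.fst : ℝ × ℝ → ℝ) ↑P) (k : ℕ) :
    ((P.powersetCard k).filter fun S => ∃ s c : ℝ, (∀ z ∈ S, c < z.2 - s * z.1) ∧
      ∀ z ∈ P, z ∉ S → z.2 - s * z.1 < c).card ≤ (rEdges P (k - 1)).card + 1 := by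
  set F := (P.powersetCard k).filter fun S => ∃ s c : ℝ, (∀ z ∈ S, c < z.2 - s * z.1) ∧
      ∀ z ∈ P, z ∉ S → z.2 - s * z.1 < c
  have huniq : ∀ S ∈ P.powersetCard k, ∀ T ∈ P.powersetCard k,
      (∀ a ∈ S, ∀ b ∈ P, b ∉ S → a.1 < b.1) → (∀ a ∈ T, ∀ b ∈ P, b ∉ T → a.1 < b.1) → S = T := by
    intro S hS T hT hS' hT'
    rw [Finset.mem_powersetCard] at hS hT
    by_contra hne
    have h1 : ¬ S ⊆ T := fun h => hne (Finset.eq_of_subset_of_card_le h (by omega))
    have h2 : ¬ T ⊆ S := fun h => hne (Finset.eq_of_subset_of_card_le h (by omega)).symm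
    obtain ⟨a, ha, ha'⟩ := Finset.not_subset.1 h1
    obtain ⟨b, hb, hb'⟩ := Finset.not_subset.1 h2
    have := hS' a ha b (hT.1 hb) hb'
    have := hT' b hb a (hS.1 ha) ha'
    linarith
  set G := F.filter fun S => ∀ a ∈ S, ∀ b ∈ P, b ∉ S → a.1 < b.1
  have hG : G.card ≤ 1 := Finset.card_le_one.2 fun S hS T hT => by
    simp only [G, F, Finset.mem_filter] at hS hT
    exact huniq S hS.1.1 T hT.1.1 hS.2 hT.2
  have hsub : F \ G ⊆ (rEdges P (k - 1)).image fun e => insert e.2 (leftSet P e.1 e.2) := by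
    intro S hS
    simp only [Finset.mem_sdiff, G, Finset.mem_filter, not_and] at hS
    obtain ⟨hS1, hS2⟩ := hS
    simp only [F, Finset.mem_filter, Finset.mem_powersetCard] at hS1
    obtain ⟨⟨hSP, hcard⟩, s, c, h1, h2⟩ := hS1
    rcases upper_sep hg hx hSP s c h1 h2 with ⟨e, he, heq⟩ | h
    · exact Finset.mem_image.2 ⟨e, hcard ▸ he, heq.symm⟩
    · exact absurd h (hS2 (by simp only [F, Finset.mem_filter, Finset.mem_powersetCard]
                              exact ⟨⟨hSP, hcard⟩, s, c, h1, h2⟩))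
  have := (Finset.card_le_card hsub).trans Finset.card_image_le
  have := Finset.card_sdiff_add_card_inter F G
  have : (F ∩ G).card ≤ G.card := Finset.card_le_card Finset.inter_subset_right
  omega

end Vale.Agent.P065
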