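import Vale.Agent.P065.Lattice

/-! From k-edges to k-sets: linear images preserve k-edges, so `k`-sets are at most twice
the `(k-1)`-edges plus two. -/

namespace Vale.Agent.P065

open Finset
open scoped Classical

variable {P : Finset (ℝ × ℝ)} {k : ℕ}

/-- An injective map multiplying the orientation by a positive number keeps k-edge counts. -/
lemma kEdges_image (T : ℝ × ℝ → ℝ × ℝ) (hT : Function.Injective T) (δ : ℝ) (hδ : 0 < δ)
    (hc : ∀ a b z, crs (T a) (T b) (T z) = δ * crs a b z) :
    (kEdges (P.image T) k).card = (kEdges P k).card := by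
  have hleft : ∀ a b, leftSet (P.image T) (T a) (T b) = (leftSet P a b).image T := by
    intro a b
    rw [leftSet, Finset.filter_image, leftSet]
    congr 1
    refine Finset.filter_congr fun z _ => ?_
    rw [hc]
    exact ⟨fun h => pos_of_mul_pos_right h hδ.le, fun h => mul_pos hδ h⟩
  symm
  refine Finset.card_bij (fun e _ => (T e.1, T e.2)) ?_ ?_ ?_
  · intro e he
    simp only [kEdges, Finset.mem_filter, Finset.mem_offDiag] at he ⊢
    refine ⟨⟨Finset.mem_image_of_mem _ he.1.1, Finset.mem_image_of_mem _ he.1.2.1,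
      fun h => he.1.2.2 (hT h)⟩, ?_⟩
    rw [hleft, Finset.card_image_of_injective _ hT]
    exact he.2
  · intro e _ e' _ h
    simp only [Prod.mk.injEq] at h
    exact Prod.ext (hT h.1) (hT h.2)
  · intro g hg
    simp only [kEdges, Finset.mem_filter, Finset.mem_offDiag, Finset.mem_image] at hg
    obtain ⟨⟨⟨a, ha, h1⟩, ⟨b, hb, h2⟩, hne⟩, hk⟩ := hg
    refine ⟨(a, b), ?_, Prod.ext h1 h2⟩
    simp only [kEdges, Finset.mem_filter, Finset.mem_offDiag]
    refine ⟨⟨ha, hb, fun h => hne (by rw [← h1, ← h2, h])⟩, ?_⟩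
    rw [← h1, ← h2, hleft, Finset.card_image_of_injective _ hT] at hk
    exact hk

lemma General.image (hg : General P) (T : ℝ × ℝ → ℝ × ℝ) (δ : ℝ) (hδ : δ ≠ 0)
    (hc : ∀ a b z, crs (T a) (T b) (T z) = δ * crs a b z) : General (P.image T) := by
  intro p hp q hq r hr hpq hrp hrq
  simp only [Finset.mem_image] at hp hq hr
  obtain ⟨a, ha, rfl⟩ := hp
  obtain ⟨b, hb, rfl⟩ := hq
  obtain ⟨z, hz, rfl⟩ := hr
  rw [hc]
  exact mul_ne_zero hδ (hg a ha b hb z hz (fun e => hpq (by rw [e])) (fun e => hrp (by rw [e]))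
    (fun e => hrq (by rw [e])))

/-- A shear making first coordinates distinct. -/
lemma exists_shear (P : Finset (ℝ × ℝ)) :
    ∃ t : ℝ, Set.InjOn (fun z : ℝ × ℝ => z.1 + t * z.2) ↑P := by
  obtain ⟨t, ht⟩ := Infinite.exists_notMem_finset
    (P.offDiag.image fun q => (q.2.1 - q.1.1) / (q.1.2 - q.2.2))
  refine ⟨t, fun a ha b hb h => ?_⟩
  simp only at h
  by_contra hne
  rcases eq_or_ne a.2 b.2 with h2 | h2
  · exact hne (Prod.ext (by rw [h2] at h; linarith) h2)
  · refine ht (Finset.mem_image.2 ⟨(a, b), Finset.mem_offDiag.2 ⟨ha, hb, hne⟩, ?_⟩)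
    rw [div_eq_iff (sub_ne_zero.2 h2)]
    linarith

/-- For distinct first coordinates. -/
lemma kSets_card_le' (hg : General P) (hx : Set.InjOn (Prod.fst : ℝ × ℝ → ℝ) ↑P) (k : ℕ) :
    (kSets P k).card ≤ 2 * (kEdges P (k - 1)).card + 2 := by
  set Q := P.image fun z => -z
  have hc : ∀ a b z : ℝ × ℝ, crs (-a) (-b) (-z) = (1 : ℝ) * crs a b z := by
    intro a b z; simp only [crs, Prod.fst_neg, Prod.snd_neg]; ring
  have hgQ : General Q := hg.image _ 1 one_ne_zero hc
  have hxQ : Set.InjOn (Prod.fst : ℝ × ℝ → ℝ) ↑Q := by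
    intro p hp q hq h
    simp only [Q, Finset.coe_image, Set.mem_image, Finset.mem_coe] at hp hq
    obtain ⟨a, ha, rfl⟩ := hp
    obtain ⟨b, hb, rfl⟩ := hq
    rw [hx ha hb (by simpa using h)]
  let up : Finset (ℝ × ℝ) → Finset (Finset (ℝ × ℝ)) := fun R =>
    (R.powersetCard k).filter fun S => ∃ s c : ℝ, (∀ z ∈ S, c < z.2 - s * z.1) ∧
      ∀ z ∈ R, z ∉ S → z.2 - s * z.1 < c
  have hsub : kSets P k ⊆ up P ∪ (up Q).image fun S => S.image fun z => -z := by
    intro S hS
    simp only [kSets, Finset.mem_filter] at hS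
    obtain ⟨hS, u, v, c, h1, h2⟩ := hS
    obtain ⟨w, hw, hw1, hw2⟩ : ∃ w : ℝ, w ≠ 0 ∧ (∀ z ∈ S, c < u * z.1 + w * z.2) ∧
        ∀ z ∈ P, z ∉ S → u * z.1 + w * z.2 < c := by
      have e : ∀ᶠ w in nhds v, (∀ z ∈ S, c < u * z.1 + w * z.2) ∧
          ∀ z ∈ P.filter (· ∉ S), u * z.1 + w * z.2 < c := by
        refine ((Filter.eventually_all_finset S).2 fun z hz => ?_).and
          ((Filter.eventually_all_finset _).2 fun z hz => ?_)
        · exact ((continuous_const.add (continuous_id.mul continuous_const)).tendsto v).eventually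
            (eventually_gt_nhds (h1 z hz))
        · exact ((continuous_const.add (continuous_id.mul continuous_const)).tendsto v).eventually
            (eventually_lt_nhds (h2 z (Finset.mem_filter.1 hz).1 (Finset.mem_filter.1 hz).2))
      obtain ⟨ε, hε, hball⟩ := Metric.eventually_nhds_iff.1 e
      obtain ⟨w, hw, hw0⟩ : ∃ w, dist w v < ε ∧ w ≠ 0 := by
        rcases eq_or_ne v 0 with hv | hv
        · exact ⟨ε / 2, by rw [hv, Real.dist_eq, sub_zero, abs_of_pos (half_pos hε)]; linarith,
            (half_pos hε).ne'⟩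
        · exact ⟨v, by simpa using hε, hv⟩
      obtain ⟨b1, b2⟩ := hball hw
      exact ⟨w, hw0, b1, fun z hz hzS => b2 z (Finset.mem_filter.2 ⟨hz, hzS⟩)⟩
    have key : ∀ z : ℝ × ℝ, z.2 - (-u / w) * z.1 = (u * z.1 + w * z.2) / w := fun z => by
      field_simp; ring
    rcases lt_or_gt_of_ne hw with hneg | hpos
    · refine Finset.mem_union_right _ (Finset.mem_image.2 ⟨S.image fun z => -z, ?_, ?_⟩)
      · refine Finset.mem_filter.2 ⟨?_, -u / w, -c / w, ?_, ?_⟩
        · rw [Finset.mem_powersetCard] at hS ⊢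
          exact ⟨Finset.image_subset_image hS.1,
            by rw [Finset.card_image_of_injective _ neg_injective, hS.2]⟩
        · intro z hz
          obtain ⟨a, ha, rfl⟩ := Finset.mem_image.1 hz
          rw [key, div_lt_div_right_of_neg hneg]
          simp only [Prod.fst_neg, Prod.snd_neg]
          linarith [hw1 a ha]
        · intro z hz hzS
          obtain ⟨a, ha, rfl⟩ := Finset.mem_image.1 hz
          rw [key, div_lt_div_right_of_neg hneg]
          simp only [Prod.fst_neg, Prod.snd_neg]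
          linarith [hw2 a ha fun h => hzS (Finset.mem_image_of_mem _ h)]
      · simp [Finset.image_image, Function.comp_def]
    · refine Finset.mem_union_left _ (Finset.mem_filter.2 ⟨hS, -u / w, c / w, ?_, ?_⟩)
      · intro z hz
        rw [key, div_lt_div_iff_of_pos_right hpos]
        exact hw1 z hz
      · intro z hz hzS
        rw [key, div_lt_div_iff_of_pos_right hpos]
        exact hw2 z hz hzS
  have h1 : (up P).card ≤ (rEdges P (k - 1)).card + 1 := upper_card hg hx k
  have h2 : (up Q).card ≤ (rEdges Q (k - 1)).card + 1 := upper_card hgQ hxQ k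
  have h3 : (rEdges P (k - 1)).card ≤ (kEdges P (k - 1)).card := Finset.card_filter_le _ _
  have h4 : (rEdges Q (k - 1)).card ≤ (kEdges Q (k - 1)).card := Finset.card_filter_le _ _
  have h5 : (kEdges Q (k - 1)).card = (kEdges P (k - 1)).card :=
    kEdges_image _ neg_injective 1 one_pos hc
  have h6 := (Finset.card_le_card hsub).trans ((Finset.card_union_le _ _).trans
    (Nat.add_le_add le_rfl Finset.card_image_le))
  omega

/-- The general bound. -/
theorem kSets_card_le (hg : General P) (k : ℕ) :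
    (kSets P k).card ≤ 2 * (kEdges P (k - 1)).card + 2 := by
  obtain ⟨t, ht⟩ := exists_shear P
  set T : ℝ × ℝ → ℝ × ℝ := fun z => (z.1 + t * z.2, z.2) with hT
  have hTi : Function.Injective T := fun a b h => by
    simp only [hT, Prod.mk.injEq] at h
    exact Prod.ext (by rw [h.2] at h; linarith [h.1]) h.2
  have hc : ∀ a b z, crs (T a) (T b) (T z) = (1 : ℝ) * crs a b z := by
    intro a b z; simp only [hT, crs]; ring
  have hx : Set.InjOn (Prod.fst : ℝ × ℝ → ℝ) ↑(P.image T) := by
    intro p hp q hq h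
    simp only [Finset.coe_image, Set.mem_image, Finset.mem_coe] at hp hq
    obtain ⟨a, ha, rfl⟩ := hp
    obtain ⟨b, hb, rfl⟩ := hq
    rw [ht ha hb h]
  have := kSets_card_le' (hg.image T 1 one_ne_zero hc) hx k
  rw [kEdges_image T hTi 1 one_pos hc] at this
  refine le_trans ?_ this
  refine Finset.card_le_card_of_injOn (fun S => S.image T) ?_ ?_
  · intro S hS
    simp only [Finset.mem_coe, kSets, Finset.mem_filter, Finset.mem_powersetCard] at hS ⊢
    obtain ⟨⟨hSP, hcard⟩, u, v, c, h1, h2⟩ := hS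
    refine ⟨⟨Finset.image_subset_image hSP, by rw [Finset.card_image_of_injective _ hTi, hcard]⟩,
      u, v - t * u, c, ?_, ?_⟩
    · intro z hz
      obtain ⟨a, ha, rfl⟩ := Finset.mem_image.1 hz
      simp only [hT]
      linarith [h1 a ha]
    · intro z hz hzS
      obtain ⟨a, ha, rfl⟩ := Finset.mem_image.1 hz
      simp only [hT]
      linarith [h2 a ha fun h => hzS (Finset.mem_image_of_mem _ h)]
  · intro S _ S' _ h
    exact Finset.image_injective hTi h

end Vale.Agent.P065
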