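import Vale.Agent.P065.KEdge

/-! Sets rounding injectively into an `m × m` lattice square have `O(m²)` k-edges. -/

namespace Vale.Agent.P065

open Finset
open scoped Classical

/-- Integer cross product. -/
def ic (d v : ℤ × ℤ) : ℤ := d.1 * v.2 - d.2 * v.1

/-- The primitive direction of a nonzero integer vector. -/
def prim (D : ℤ × ℤ) : ℤ × ℤ := (D.1 / (Int.gcd D.1 D.2 : ℤ), D.2 / (Int.gcd D.1 D.2 : ℤ))

lemma prim_spec {D : ℤ × ℤ} (hD : D ≠ 0) :
    ∃ t : ℤ, 1 ≤ t ∧ D.1 = t * (prim D).1 ∧ D.2 = t * (prim D).2 ∧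
      ∃ x y : ℤ, x * (prim D).1 + y * (prim D).2 = 1 := by
  set g : ℕ := Int.gcd D.1 D.2 with hg
  have hg0 : g ≠ 0 := fun h => hD (by
    obtain ⟨h1, h2⟩ := Int.gcd_eq_zero_iff.1 h
    exact Prod.ext h1 h2)
  have hgz : (g : ℤ) ≠ 0 := by exact_mod_cast hg0
  have h1 : D.1 = (g : ℤ) * (prim D).1 :=
    (Int.mul_ediv_cancel' (Int.gcd_dvd_left D.1 D.2)).symm
  have h2 : D.2 = (g : ℤ) * (prim D).2 :=
    (Int.mul_ediv_cancel' (Int.gcd_dvd_right D.1 D.2)).symm
  refine ⟨g, by omega, h1, h2, Int.gcdA D.1 D.2, Int.gcdB D.1 D.2, ?_⟩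
  have h := Int.gcd_eq_gcd_ab D.1 D.2
  apply mul_left_cancel₀ hgz
  calc (g : ℤ) * (Int.gcdA D.1 D.2 * (prim D).1 + Int.gcdB D.1 D.2 * (prim D).2)
      = ((g : ℤ) * (prim D).1) * Int.gcdA D.1 D.2 + ((g : ℤ) * (prim D).2) * Int.gcdB D.1 D.2 := by
        ring
    _ = D.1 * Int.gcdA D.1 D.2 + D.2 * Int.gcdB D.1 D.2 := by rw [← h1, ← h2]
    _ = (g : ℤ) * 1 := by rw [mul_one]; exact h.symm

lemma abs_prod_le {x y A B : ℝ} (hx : |x| ≤ A) (hy : |y| ≤ B) : |x * y| ≤ A * B := by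
  rw [abs_mul]
  exact mul_le_mul hx hy (abs_nonneg _) (le_trans (abs_nonneg _) hx)

/-- Rounding data for `P`. -/
structure Rounds (P : Finset (ℝ × ℝ)) (m : ℕ) (f : ℝ × ℝ → ℤ × ℤ) : Prop where
  inj : Set.InjOn f ↑P
  box : ∀ z ∈ P, 0 ≤ (f z).1 ∧ (f z).1 < m ∧ 0 ≤ (f z).2 ∧ (f z).2 < m
  near : ∀ z ∈ P, 16 * (m : ℝ) * |z.1 - (f z).1| ≤ 1 ∧ 16 * (m : ℝ) * |z.2 - (f z).2| ≤ 1

variable {P : Finset (ℝ × ℝ)} {m k : ℕ} {f : ℝ × ℝ → ℤ × ℤ}

lemma Rounds.m_pos (hf : Rounds P m f) {z : ℝ × ℝ} (hz : z ∈ P) : 0 < m := by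
  have := hf.box z hz; omega

lemma Rounds.diff (hf : Rounds P m f) {z w : ℝ × ℝ} (hz : z ∈ P) (hw : w ∈ P) :
    |((f z - f w).1 : ℝ)| ≤ m ∧ |((f z - f w).2 : ℝ)| ≤ m ∧
      |(z.1 - w.1) - ((f z - f w).1 : ℝ)| ≤ 1 / (8 * m) ∧
      |(z.2 - w.2) - ((f z - f w).2 : ℝ)| ≤ 1 / (8 * m) := by
  have hm : (0 : ℝ) < m := by exact_mod_cast hf.m_pos hz
  obtain ⟨a1, a2, a3, a4⟩ := hf.box z hz
  obtain ⟨b1, b2, b3, b4⟩ := hf.box w hw
  obtain ⟨p1, p2⟩ := hf.near z hz
  obtain ⟨q1, q2⟩ := hf.near w hw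
  refine ⟨?_, ?_, ?_, ?_⟩
  · rw [← Int.cast_abs]
    exact_mod_cast (abs_le.2 ⟨by simp only [Prod.fst_sub]; omega,
      by simp only [Prod.fst_sub]; omega⟩ : |(f z - f w).1| ≤ (m : ℤ))
  · rw [← Int.cast_abs]
    exact_mod_cast (abs_le.2 ⟨by simp only [Prod.snd_sub]; omega,
      by simp only [Prod.snd_sub]; omega⟩ : |(f z - f w).2| ≤ (m : ℤ))
  · rw [le_div_iff₀ (by positivity)]
    have := abs_sub (z.1 - (f z).1) (w.1 - (f w).1)
    simp only [Prod.fst_sub, Int.cast_sub]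
    rw [show z.1 - w.1 - (((f z).1 : ℝ) - (f w).1) = (z.1 - (f z).1) - (w.1 - (f w).1) by ring]
    nlinarith
  · rw [le_div_iff₀ (by positivity)]
    have := abs_sub (z.2 - (f z).2) (w.2 - (f w).2)
    simp only [Prod.snd_sub, Int.cast_sub]
    rw [show z.2 - w.2 - (((f z).2 : ℝ) - (f w).2) = (z.2 - (f z).2) - (w.2 - (f w).2) by ring]
    nlinarith

/-- Off the string of `a b`, the side of a point is decided on the lattice. -/
lemma sign_spec (hf : Rounds P m f) {a b z : ℝ × ℝ} (ha : a ∈ P) (hb : b ∈ P) (hz : z ∈ P)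
    (hab : a ≠ b) :
    (1 ≤ ic (prim (f b - f a)) (f z - f a) → 0 < crs a b z) ∧
      (ic (prim (f b - f a)) (f z - f a) ≤ -1 → crs a b z < 0) := by
  have hD : f b - f a ≠ 0 := fun h => hab (hf.inj ha hb (sub_eq_zero.1 h).symm)
  obtain ⟨t, ht, hd1, hd2, -⟩ := prim_spec hD
  set c := ic (prim (f b - f a)) (f z - f a) with hc
  set D := f b - f a with hDdef
  set Z := f z - f a with hZdef
  have hm0 := hf.m_pos ha
  have hm : (1 : ℝ) ≤ m := by exact_mod_cast hm0
  obtain ⟨D1, D2, e1, e2⟩ := hf.diff hb ha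
  obtain ⟨Z1, Z2, g1, g2⟩ := hf.diff hz ha
  set δ : ℝ := 1 / (8 * m) with hδ
  have hδm : (m : ℝ) * δ = 1 / 8 := by rw [hδ]; field_simp
  have hδ1 : δ ≤ 1 / 8 := by nlinarith [show 0 ≤ δ by positivity]
  set ex := (b.1 - a.1) - (D.1 : ℝ)
  set ey := (b.2 - a.2) - (D.2 : ℝ)
  set gx := (z.1 - a.1) - (Z.1 : ℝ)
  set gy := (z.2 - a.2) - (Z.2 : ℝ)
  have hmain : crs a b z = ((t * c : ℤ) : ℝ) +
      ((D.1 : ℝ) * gy - (D.2 : ℝ) * gx + ex * (Z.2 : ℝ) - ey * (Z.1 : ℝ) + ex * gy - ey * gx) := by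
    have : (t * c : ℤ) = D.1 * Z.2 - D.2 * Z.1 := by rw [hc, ic, hd1, hd2]; ring
    rw [this]
    simp only [crs, ex, ey, gx, gy]
    push_cast
    ring
  have b1 := abs_le.1 (abs_prod_le D1 g2)
  have b2 := abs_le.1 (abs_prod_le D2 g1)
  have b3 := abs_le.1 (abs_prod_le e1 Z2)
  have b4 := abs_le.1 (abs_prod_le e2 Z1)
  have b5 := abs_le.1 (abs_prod_le e1 g2)
  have b6 := abs_le.1 (abs_prod_le e2 g1)
  have hδ2 : δ * δ ≤ 1 / 64 := by nlinarith [show 0 ≤ δ by positivity]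
  constructor
  · intro h
    have : (1 : ℝ) ≤ ((t * c : ℤ) : ℝ) := by exact_mod_cast (by nlinarith : 1 ≤ t * c)
    rw [hmain]; linarith
  · intro h
    have : ((t * c : ℤ) : ℝ) ≤ -1 := by exact_mod_cast (by nlinarith : t * c ≤ -1)
    rw [hmain]; linarith

lemma ic_sub (d v w : ℤ × ℤ) : ic d (v - w) = ic d v - ic d w := by
  simp only [ic, Prod.fst_sub, Prod.snd_sub]; ring

lemma ic_prim_self {D : ℤ × ℤ} (hD : D ≠ 0) : ic (prim D) D = 0 := by
  obtain ⟨t, -, h1, h2, -⟩ := prim_spec hD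
  rw [ic, h1, h2]; ring

/-- The direction of an edge. -/
noncomputable def dir (f : ℝ × ℝ → ℤ × ℤ) (e : (ℝ × ℝ) × (ℝ × ℝ)) : ℤ × ℤ :=
  prim (f e.2 - f e.1)

lemma dir_ic_eq (hf : Rounds P m f) {e : (ℝ × ℝ) × (ℝ × ℝ)} (he : e ∈ kEdges P k) :
    ic (dir f e) (f e.2) = ic (dir f e) (f e.1) := by
  simp only [kEdges, Finset.mem_filter, Finset.mem_offDiag] at he
  obtain ⟨⟨h1, h2, h3⟩, -⟩ := he
  have := ic_prim_self (D := f e.2 - f e.1) fun h => h3 (hf.inj h1 h2 (sub_eq_zero.1 h).symm)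
  rw [ic_sub] at this
  exact sub_eq_zero.1 this

/-- In one direction all `k`-edges lie on one string. -/
lemma string_unique (hf : Rounds P m f) {e e' : (ℝ × ℝ) × (ℝ × ℝ)} (he : e ∈ kEdges P k)
    (he' : e' ∈ kEdges P k) (hd : dir f e = dir f e') :
    ic (dir f e) (f e.1) = ic (dir f e) (f e'.1) := by
  suffices key : ∀ e e' : (ℝ × ℝ) × (ℝ × ℝ), e ∈ kEdges P k → e' ∈ kEdges P k →
      dir f e = dir f e' → ¬ ic (dir f e) (f e.1) < ic (dir f e) (f e'.1) by
    rcases lt_trichotomy (ic (dir f e) (f e.1)) (ic (dir f e) (f e'.1)) with h | h | h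
    · exact absurd h (key e e' he he' hd)
    · exact h
    · exact absurd (hd ▸ h) (key e' e he' he hd.symm)
  intro e e' he he' hd hlt
  simp only [kEdges, Finset.mem_filter, Finset.mem_offDiag] at he he'
  obtain ⟨⟨h1, h2, h3⟩, hk⟩ := he
  obtain ⟨⟨h1', h2', h3'⟩, hk'⟩ := he'
  have : (leftSet P e'.1 e'.2).card < (leftSet P e.1 e.2).card := by
    refine Finset.card_lt_card (Finset.ssubset_iff_of_subset ?_ |>.2 ⟨e'.1, ?_, ?_⟩)
    · intro z hz
      simp only [leftSet, Finset.mem_filter] at hz ⊢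
      refine ⟨hz.1, (sign_spec hf h1 h2 hz.1 h3).1 ?_⟩
      by_contra hcon
      rw [ic_sub] at hcon
      have hneg := (sign_spec hf h1' h2' hz.1 h3').2 (by
        rw [ic_sub]
        change ic (dir f e') (f z) - ic (dir f e') (f e'.1) ≤ -1
        change ¬ (1 ≤ ic (dir f e) (f z) - ic (dir f e) (f e.1)) at hcon
        rw [← hd]; omega)
      linarith [hz.2]
    · refine Finset.mem_filter.2 ⟨h1', (sign_spec hf h1 h2 h1' h3).1 ?_⟩
      rw [ic_sub]
      change 1 ≤ ic (dir f e) (f e'.1) - ic (dir f e) (f e.1)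
      omega
    · simp [leftSet, crs]
  omega

/-- String coordinates. -/
def phi (d : ℤ × ℤ) (z : ℝ × ℝ) : ℝ × ℝ :=
  ((d.1 : ℝ) * z.1 + (d.2 : ℝ) * z.2, (d.1 : ℝ) * z.2 - (d.2 : ℝ) * z.1)

lemma crs_phi (d : ℤ × ℤ) (a b z : ℝ × ℝ) :
    crs (phi d a) (phi d b) (phi d z) = ((d.1 : ℝ) ^ 2 + (d.2 : ℝ) ^ 2) * crs a b z := by
  simp only [crs, phi]; ring

/-- Along a string the projection follows the lattice. -/
lemma proj_lt (hf : Rounds P m f) {a b : ℝ × ℝ} (ha : a ∈ P) (hb : b ∈ P) (d : ℤ × ℤ) (τ : ℤ)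
    (hτ : 1 ≤ τ) (hd : d ≠ 0) (h : f b - f a = (τ * d.1, τ * d.2)) :
    (phi d a).1 < (phi d b).1 := by
  have hm : (1 : ℝ) ≤ m := by exact_mod_cast hf.m_pos ha
  obtain ⟨-, -, e1, e2⟩ := hf.diff hb ha
  rw [h] at e1 e2
  push_cast at e1 e2
  have hδ : (1 : ℝ) / (8 * m) ≤ 1 / 8 :=
    div_le_div_of_nonneg_left (by norm_num) (by norm_num) (by linarith)
  have hsq : (1 : ℝ) ≤ (d.1 : ℝ) ^ 2 + (d.2 : ℝ) ^ 2 := by
    have : 1 ≤ d.1 ^ 2 + d.2 ^ 2 := by
      rcases em (d.1 = 0) with h0 | h0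
      · have : d.2 ≠ 0 := fun h2 => hd (Prod.ext h0 h2)
        nlinarith [Int.one_le_abs this, sq_abs d.2]
      · nlinarith [Int.one_le_abs h0, sq_abs d.1]
    exact_mod_cast this
  have hτ' : (1 : ℝ) ≤ τ := by exact_mod_cast hτ
  have b1 := abs_le.1 (abs_prod_le (le_refl |(d.1 : ℝ)|) (e1.trans hδ))
  have b2 := abs_le.1 (abs_prod_le (le_refl |(d.2 : ℝ)|) (e2.trans hδ))
  simp only [phi]
  nlinarith [sq_abs (d.1 : ℝ), sq_abs (d.2 : ℝ), sq_nonneg (|(d.1 : ℝ)| - 1),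
    sq_nonneg (|(d.2 : ℝ)| - 1)]

/-- Lattice vectors on the line of a primitive direction are its multiples. -/
lemma exists_mult {d v : ℤ × ℤ} (hbez : ∃ x y : ℤ, x * d.1 + y * d.2 = 1) (h : ic d v = 0) :
    ∃ τ : ℤ, v = (τ * d.1, τ * d.2) := by
  obtain ⟨x, y, hxy⟩ := hbez
  simp only [ic] at h
  refine ⟨x * v.1 + y * v.2, Prod.ext ?_ ?_⟩
  · linear_combination (-v.1) * hxy - y * h
  · linear_combination (-v.2) * hxy + x * h

/-- The larger coordinate of a direction. -/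
def height (d : ℤ × ℤ) : ℕ := max d.1.natAbs d.2.natAbs

lemma dir_facts (hf : Rounds P m f) {e : (ℝ × ℝ) × (ℝ × ℝ)} (he : e ∈ kEdges P k) :
    (∃ x y : ℤ, x * (dir f e).1 + y * (dir f e).2 = 1) ∧ 1 ≤ height (dir f e) ∧
      height (dir f e) < m := by
  simp only [kEdges, Finset.mem_filter, Finset.mem_offDiag] at he
  obtain ⟨⟨h1, h2, h3⟩, -⟩ := he
  obtain ⟨t, ht, hd1, hd2, hbez⟩ :=
    prim_spec (D := f e.2 - f e.1) fun h => h3 (hf.inj h1 h2 (sub_eq_zero.1 h).symm)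
  refine ⟨hbez, ?_, ?_⟩
  · by_contra hh
    obtain ⟨x, y, hxy⟩ := hbez
    simp only [height, dir] at hh
    have z1 : (prim (f e.2 - f e.1)).1 = 0 := by omega
    have z2 : (prim (f e.2 - f e.1)).2 = 0 := by omega
    rw [z1, z2] at hxy; simp at hxy
  · obtain ⟨a1, a2, a3, a4⟩ := hf.box _ h1
    obtain ⟨b1, b2, b3, b4⟩ := hf.box _ h2
    simp only [Prod.fst_sub, Prod.snd_sub] at hd1 hd2
    have m1 := congrArg Int.natAbs hd1
    have m2 := congrArg Int.natAbs hd2
    rw [Int.natAbs_mul] at m1 m2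
    have k1 : (dir f e).1.natAbs ≤ t.natAbs * (prim (f e.2 - f e.1)).1.natAbs :=
      Nat.le_mul_of_pos_left _ (by omega)
    have k2 : (dir f e).2.natAbs ≤ t.natAbs * (prim (f e.2 - f e.1)).2.natAbs :=
      Nat.le_mul_of_pos_left _ (by omega)
    simp only [height]
    omega

/-- The string of an edge has at most `2 m / h` points. -/
lemma string_card (hf : Rounds P m f) {d : ℤ × ℤ} (hbez : ∃ x y : ℤ, x * d.1 + y * d.2 = 1)
    (hd : 1 ≤ height d) (hdm : height d < m) (c : ℤ) :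
    height d * (P.filter fun z => ic d (f z) = c).card ≤ 2 * m := by
  set h := height d with hh
  set S := P.filter fun z => ic d (f z) = c
  have hS : S.card ≤ (m - 1) / h + 1 := by
    rw [← Finset.card_range ((m - 1) / h + 1)]
    refine Finset.card_le_card_of_injOn (fun z => (if d.2.natAbs ≤ d.1.natAbs
      then (f z).1.toNat else (f z).2.toNat) / h) ?_ ?_
    · intro z hz
      simp only [Finset.mem_coe, S, Finset.mem_filter] at hz
      obtain ⟨a1, a2, a3, a4⟩ := hf.box z hz.1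
      simp only [Finset.mem_coe, Finset.mem_range]
      refine Nat.lt_succ_of_le (Nat.div_le_div_right ?_)
      split_ifs <;> omega
    · intro z hz w hw heq
      simp only [Finset.mem_coe, S, Finset.mem_filter] at hz hw
      obtain ⟨a1, a2, a3, a4⟩ := hf.box z hz.1
      obtain ⟨b1, b2, b3, b4⟩ := hf.box w hw.1
      obtain ⟨τ, hτ⟩ := exists_mult (v := f z - f w) hbez (by rw [ic_sub, hz.2, hw.2, sub_self])
      have t1 : (f z).1 - (f w).1 = τ * d.1 := congrArg Prod.fst hτ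
      have t2 : (f z).2 - (f w).2 = τ * d.2 := congrArg Prod.snd hτ
      refine hf.inj hz.1 hw.1 (sub_eq_zero.1 ?_)
      suffices τ = 0 by rw [hτ, this]; simp
      by_contra hτ0
      have key : ∀ (x y : ℕ) (u : ℤ), x / h = y / h → u.natAbs = h →
          (x : ℤ) - y ≠ τ * u := by
        intro x y u hxy hu heq
        have := congrArg Int.natAbs heq
        rw [Int.natAbs_mul, hu] at this
        have : h ≤ ((x : ℤ) - y).natAbs := this ▸ Nat.le_mul_of_pos_left _ (by omega)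
        have := Nat.div_add_mod x h; have := Nat.div_add_mod y h
        have := Nat.mod_lt x (show 0 < h by omega); have := Nat.mod_lt y (show 0 < h by omega)
        rw [hxy] at *
        omega
      simp only at heq
      split_ifs at heq with hc
      · exact key _ _ d.1 heq (by simp only [hh, height]; omega) (by omega)
      · exact key _ _ d.2 heq (by simp only [hh, height]; omega) (by omega)
  calc h * S.card ≤ h * ((m - 1) / h + 1) := Nat.mul_le_mul_left _ hS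
    _ = h * ((m - 1) / h) + h := by ring
    _ ≤ 2 * m := by have := Nat.mul_div_le (m - 1) h; omega

/-- The `k`-edges in one direction. -/
lemma fibre_card (hg : General P) (hf : Rounds P m f) {e₀ : (ℝ × ℝ) × (ℝ × ℝ)}
    (he₀ : e₀ ∈ kEdges P k) :
    ∃ L : ℕ, height (dir f e₀) * L ≤ 2 * m ∧
      ((kEdges P k).filter fun e => dir f e = dir f e₀).card ≤ L * (2 * Nat.sqrt L + 4) := by
  set d := dir f e₀
  obtain ⟨hbez, hh1, hhm⟩ : (∃ x y : ℤ, x * d.1 + y * d.2 = 1) ∧ 1 ≤ height d ∧ height d < m :=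
    dir_facts hf he₀
  set c := ic d (f e₀.1)
  set S := P.filter fun z => ic d (f z) = c
  refine ⟨S.card, string_card hf hbez hh1 hhm c, ?_⟩
  have hd0 : d ≠ 0 := fun h => by
    obtain ⟨x, y, hxy⟩ := hbez
    change x * d.1 + y * d.2 = 1 at hxy
    rw [h] at hxy; simp at hxy
  have hpos : (0 : ℝ) < (d.1 : ℝ) ^ 2 + (d.2 : ℝ) ^ 2 := by
    have : 0 < d.1 ^ 2 + d.2 ^ 2 := by
      rcases em (d.1 = 0) with h0 | h0
      · have : d.2 ≠ 0 := fun h2 => hd0 (Prod.ext h0 h2)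
        positivity
      · positivity
    exact_mod_cast this
  -- distinct projections on the string
  have hcmp : ∀ z ∈ S, ∀ w ∈ S, z ≠ w → (phi d z).1 ≠ (phi d w).1 := by
    intro z hz w hw hne
    simp only [S, Finset.mem_filter] at hz hw
    obtain ⟨τ, hτ⟩ := exists_mult (v := f w - f z) hbez (by rw [ic_sub, hz.2, hw.2, sub_self])
    rcases lt_trichotomy τ 0 with h | h | h
    · refine (proj_lt hf hw.1 hz.1 d (-τ) (by omega) hd0 ?_).ne'
      rw [← neg_sub, hτ]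
      simp
    · exact absurd (hf.inj hw.1 hz.1 (sub_eq_zero.1 (by rw [hτ, h]; simp))).symm hne
    · exact (proj_lt hf hz.1 hw.1 d τ (by omega) hd0 hτ).ne
  have hphi : Set.InjOn (phi d) ↑S := fun z hz w hw h => by_contra fun hne =>
    hcmp z hz w hw hne (congrArg Prod.fst h)
  set Q := S.image (phi d)
  have hxQ : Set.InjOn (Prod.fst : ℝ × ℝ → ℝ) ↑Q := by
    intro p hp q hq h
    simp only [Q, Finset.coe_image, Set.mem_image, Finset.mem_coe] at hp hq
    obtain ⟨z, hz, rfl⟩ := hp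
    obtain ⟨w, hw, rfl⟩ := hq
    by_contra hne
    exact hcmp z hz w hw (fun e => hne (by rw [e])) h
  have hgQ : General Q := by
    intro p hp q hq r hr hpq hrp hrq
    simp only [Q, Finset.mem_image] at hp hq hr
    obtain ⟨a, ha, rfl⟩ := hp
    obtain ⟨b, hb, rfl⟩ := hq
    obtain ⟨z, hz, rfl⟩ := hr
    rw [crs_phi]
    exact mul_ne_zero hpos.ne' (hg a (Finset.mem_filter.1 ha).1 b (Finset.mem_filter.1 hb).1 z
      (Finset.mem_filter.1 hz).1 (fun e => hpq (by rw [e])) (fun e => hrp (by rw [e]))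
      (fun e => hrq (by rw [e])))
  set N := (P.filter fun z => c < ic d (f z)).card
  have hQ : Q.card = S.card := Finset.card_image_of_injOn hphi
  rw [← hQ]
  refine le_trans ?_ (rEdges_card_le (k := k - N) hgQ hxQ)
  refine Finset.card_le_card_of_injOn (fun e => (phi d e.1, phi d e.2)) ?_ ?_
  · intro e he
    simp only [Finset.mem_coe, Finset.mem_filter] at he
    obtain ⟨he, hde⟩ := he
    have hc1 : ic d (f e.1) = c := (string_unique hf he₀ he hde.symm).symm
    have hc2 : ic d (f e.2) = c := by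
      have := dir_ic_eq hf he
      rw [hde] at this
      rw [this, hc1]
    simp only [kEdges, Finset.mem_filter, Finset.mem_offDiag] at he
    obtain ⟨⟨h1, h2, h3⟩, hk⟩ := he
    have h1S : e.1 ∈ S := Finset.mem_filter.2 ⟨h1, hc1⟩
    have h2S : e.2 ∈ S := Finset.mem_filter.2 ⟨h2, hc2⟩
    obtain ⟨t, ht, hd1, hd2, -⟩ :=
      prim_spec (D := f e.2 - f e.1) fun h => h3 (hf.inj h1 h2 (sub_eq_zero.1 h).symm)
    have hlt : (phi d e.1).1 < (phi d e.2).1 := by
      refine proj_lt hf h1 h2 d t ht hd0 (Prod.ext ?_ ?_)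
      · rw [← hde]; exact hd1
      · rw [← hde]; exact hd2
    have hL : leftSet P e.1 e.2 =
        (P.filter fun z => c < ic d (f z)) ∪ (S.filter fun z => 0 < crs e.1 e.2 z) := by
      ext z
      simp only [leftSet, Finset.mem_filter, Finset.mem_union, S]
      constructor
      · rintro ⟨hz, hp⟩
        rcases lt_trichotomy c (ic d (f z)) with h | h | h
        · exact Or.inl ⟨hz, h⟩
        · exact Or.inr ⟨⟨hz, h.symm⟩, hp⟩
        · have hn := (sign_spec hf h1 h2 hz h3).2 (by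
            change ic (dir f e) (f z - f e.1) ≤ -1
            rw [hde, ic_sub, hc1]; omega)
          linarith
      · rintro (⟨hz, h⟩ | ⟨⟨hz, -⟩, hp⟩)
        · refine ⟨hz, (sign_spec hf h1 h2 hz h3).1 ?_⟩
          change 1 ≤ ic (dir f e) (f z - f e.1)
          rw [hde, ic_sub, hc1]; omega
        · exact ⟨hz, hp⟩
    have hleft : leftSet Q (phi d e.1) (phi d e.2) =
        (S.filter fun z => 0 < crs e.1 e.2 z).image (phi d) := by
      rw [leftSet, Finset.filter_image]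
      congr 1
      refine Finset.filter_congr fun z _ => ?_
      rw [crs_phi]
      exact ⟨fun h => pos_of_mul_pos_right h hpos.le, fun h => mul_pos hpos h⟩
    rw [hL, Finset.card_union_of_disjoint] at hk
    · simp only [Finset.mem_coe, rEdges, kEdges, Finset.mem_filter, Finset.mem_offDiag]
      refine ⟨⟨⟨Finset.mem_image_of_mem _ h1S, Finset.mem_image_of_mem _ h2S,
        fun h => h3 (hphi h1S h2S h)⟩, ?_⟩, hlt⟩
      rw [hleft, Finset.card_image_of_injOn (hphi.mono fun x hx => (Finset.mem_filter.1 hx).1)]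
      omega
    · refine Finset.disjoint_left.2 fun z hz hz' => ?_
      simp only [S, Finset.mem_filter] at hz hz'
      omega
  · intro e he e' he' h
    simp only [Finset.mem_coe, Finset.mem_filter] at he he'
    have hm1 : ∀ g ∈ (kEdges P k), dir f g = d → g.1 ∈ S ∧ g.2 ∈ S := fun g hg' hdg => by
      have hc1 : ic d (f g.1) = c := (string_unique hf he₀ hg' hdg.symm).symm
      have hc2 := dir_ic_eq hf hg'
      rw [hdg, hc1] at hc2
      simp only [kEdges, Finset.mem_filter, Finset.mem_offDiag] at hg'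
      exact ⟨Finset.mem_filter.2 ⟨hg'.1.1, hc1⟩, Finset.mem_filter.2 ⟨hg'.1.2.1, hc2⟩⟩
    simp only [Prod.mk.injEq] at h
    exact Prod.ext (hphi (hm1 e he.1 he.2).1 (hm1 e' he'.1 he'.2).1 h.1)
      (hphi (hm1 e he.1 he.2).2 (hm1 e' he'.1 he'.2).2 h.2)

lemma ring_card (h : ℕ) (hh : 1 ≤ h) (D : Finset (ℤ × ℤ)) (hD : ∀ d ∈ D, height d = h) :
    D.card ≤ 12 * h := by
  set I := Finset.Icc (-(h : ℤ)) h
  set T : Finset ℤ := {(h : ℤ), -(h : ℤ)}
  have hI : I.card = 2 * h + 1 := by simp [I]; omega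
  have hT : T.card ≤ 2 := Finset.card_le_two
  have hsub : D ⊆ T ×ˢ I ∪ I ×ˢ T := by
    intro d hd
    have := hD d hd
    simp only [height] at this
    simp only [Finset.mem_union, Finset.mem_product, I, T, Finset.mem_Icc, Finset.mem_insert,
      Finset.mem_singleton]
    omega
  have := (Finset.card_le_card hsub).trans (Finset.card_union_le _ _)
  rw [Finset.card_product, Finset.card_product, hI] at this
  nlinarith

lemma sum_inv_sqrt (M : ℕ) :
    ∑ h ∈ Finset.range M, 1 / Real.sqrt (h + 1) ≤ 2 * Real.sqrt M := by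
  induction M with
  | zero => simp
  | succ M ih =>
    rw [Finset.sum_range_succ]
    have h0 : (0 : ℝ) ≤ M := by positivity
    have hs : 0 < Real.sqrt ((M : ℝ) + 1) := Real.sqrt_pos.2 (by linarith)
    have key : 1 / Real.sqrt ((M : ℝ) + 1) ≤ 2 * Real.sqrt ((M : ℝ) + 1) - 2 * Real.sqrt M := by
      rw [div_le_iff₀ hs]
      have hh := Real.mul_self_sqrt (show (0 : ℝ) ≤ (M : ℝ) + 1 by linarith)
      have hk := Real.mul_self_sqrt h0
      nlinarith [sq_nonneg (Real.sqrt ((M : ℝ) + 1) - Real.sqrt M)]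
    push_cast
    linarith

/-- Near-lattice sets have `O(m²)` `k`-edges. -/
theorem kEdges_card_le (hg : General P) (hf : Rounds P m f) (k : ℕ) :
    ((kEdges P k).card : ℝ) ≤ 432 * (m : ℝ) ^ 2 := by
  set E := kEdges P k
  set D := E.image (dir f)
  have hfib : ∀ d ∈ D, ((E.filter fun e => dir f e = d).card : ℝ) ≤
      6 * (2 * m / height d) * Real.sqrt (2 * m / height d) := by
    intro d hd
    obtain ⟨e₀, he₀, rfl⟩ := Finset.mem_image.1 hd
    obtain ⟨L, hL, hcard⟩ := fibre_card hg hf he₀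
    obtain ⟨-, hh, -⟩ := dir_facts hf he₀
    have hx : (L : ℝ) ≤ 2 * m / height (dir f e₀) := by
      rw [le_div_iff₀ (by exact_mod_cast hh)]
      exact_mod_cast (mul_comm L _).trans_le hL
    refine (Nat.cast_le.2 hcard).trans ?_
    rcases Nat.eq_zero_or_pos L with h0 | h0
    · subst h0; simp only [zero_mul, Nat.cast_zero]; positivity
    have hs1 : (Nat.sqrt L : ℝ) ≤ Real.sqrt L := Real.le_sqrt_of_sq_le (by
      exact_mod_cast Nat.sqrt_le' L)
    have hs2 : (1 : ℝ) ≤ Real.sqrt L := Real.one_le_sqrt.2 (by exact_mod_cast h0)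
    have hs3 := Real.sqrt_le_sqrt hx
    push_cast
    calc (L : ℝ) * (2 * (Nat.sqrt L : ℝ) + 4) ≤ L * (6 * Real.sqrt L) :=
          mul_le_mul_of_nonneg_left (by linarith) (by positivity)
      _ ≤ (2 * m / height (dir f e₀)) * (6 * Real.sqrt (2 * m / height (dir f e₀))) :=
          mul_le_mul hx (by linarith) (by positivity) (by positivity)
      _ = _ := by ring
  rw [Finset.card_eq_sum_card_fiberwise (t := D) (f := dir f)
    fun e he => Finset.mem_image_of_mem _ he]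
  push_cast
  refine (Finset.sum_le_sum hfib).trans ?_
  rw [← Finset.sum_fiberwise_of_maps_to (t := Finset.range m) (g := fun d => height d - 1)
    (fun d hd => by
      obtain ⟨e₀, he₀, rfl⟩ := Finset.mem_image.1 hd
      obtain ⟨-, hh, hhm⟩ := dir_facts hf he₀
      exact Finset.mem_range.2 (by omega))]
  have hinner : ∀ i ∈ Finset.range m, (∑ d ∈ D with height d - 1 = i,
      6 * (2 * (m : ℝ) / height d) * Real.sqrt (2 * m / height d)) ≤
        144 * m * Real.sqrt (2 * m) * (1 / Real.sqrt ((i : ℝ) + 1)) := by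
    intro i _
    set Di := D.filter fun d => height d - 1 = i
    have hhd : ∀ d ∈ Di, height d = i + 1 := by
      intro d hd
      simp only [Di, Finset.mem_filter] at hd
      obtain ⟨e₀, he₀, rfl⟩ := Finset.mem_image.1 hd.1
      obtain ⟨-, hh, -⟩ := dir_facts hf he₀
      omega
    rw [Finset.sum_congr rfl fun d hd => by rw [hhd d hd]]
    rw [Finset.sum_const, nsmul_eq_mul]
    have hc : (Di.card : ℝ) ≤ 12 * ((i : ℝ) + 1) := by
      exact_mod_cast ring_card (i + 1) (by omega) Di hhd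
    push_cast
    refine (mul_le_mul_of_nonneg_right hc (by positivity)).trans (le_of_eq ?_)
    rw [Real.sqrt_div (by positivity)]
    field_simp
    ring
  refine (Finset.sum_le_sum hinner).trans ?_
  rw [← Finset.mul_sum]
  have hsum := mul_le_mul_of_nonneg_left (sum_inv_sqrt m)
    (show (0 : ℝ) ≤ 144 * m * Real.sqrt (2 * m) by positivity)
  refine hsum.trans ?_
  have h2 : Real.sqrt (2 * m) * Real.sqrt m = Real.sqrt 2 * m := by
    rw [Real.sqrt_mul (by norm_num), mul_assoc, Real.mul_self_sqrt (by positivity)]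
  have h3 : Real.sqrt 2 ≤ 3 / 2 := Real.sqrt_le_iff.2 ⟨by norm_num, by norm_num⟩
  calc 144 * (m : ℝ) * Real.sqrt (2 * m) * (2 * Real.sqrt m)
      = 288 * (m : ℝ) * (Real.sqrt (2 * m) * Real.sqrt m) := by ring
    _ ≤ 288 * (m : ℝ) * (3 / 2 * m) := by rw [h2]; gcongr
    _ = 432 * (m : ℝ) ^ 2 := by ring

end Vale.Agent.P065
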